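import Mathlib
import Vale.Agent.Lib.P328.RP.Defs

/-!
P328: reduction of the row form of the three-row inequality to the columns with a nonzero
column sum, listed in any order.

* `RowForm r c` : the row form of the three-row inequality for the `3 × n` tables with
  margins `r`, `c`.
* `restrEquiv s hs` : if the range of the injection `s : Fin k ↪ Fin n` contains every column
  with nonzero sum, the tables with margins `r`, `c` correspond to the tables with margins
  `r`, `c ∘ s` (the columns outside the range of `s` vanish).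
* `rowForm_of_embedding` : `RowForm r (c ∘ s)` implies `RowForm r c`.
* `exists_sorted_support` : an injection `s` onto the columns with nonzero sum along which the
  column sums are positive and nondecreasing.
-/

namespace Vale.Agent.Lib.P328.H30

open Finset
open Vale.Agent.Lib.P328.RP

/-- The row form of the three-row inequality for the margins `r`, `c`: for functions `g k` of
the single rows with zero sums over the tables, the square of `g 0 + g 1 + g 2` sums to at most
twice the sum of the three squares. -/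
def RowForm {n : ℕ} (r : Fin 3 → ℕ) (c : Fin n → ℕ) : Prop :=
  ∀ g : Fin 3 → (Fin n → ℕ) → ℝ, (∀ k, ∑ x : CT 3 n r c, g k (x.1 k) = 0) →
    ∑ x : CT 3 n r c, (∑ k, g k (x.1 k)) ^ 2 ≤ 2 * ∑ x : CT 3 n r c, ∑ k, g k (x.1 k) ^ 2

section restr

variable {m n k : ℕ} {r : Fin m → ℕ} {c : Fin n → ℕ}

/-- the entries of a column with sum zero vanish -/
theorem entry_eq_zero (x : CT m n r c) (i : Fin m) {j : Fin n} (hj : c j = 0) : x.1 i j = 0 := by
  have h := x.2.2 j
  rw [hj] at h
  exact (Finset.sum_eq_zero_iff.mp h) i (Finset.mem_univ i)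

theorem not_range_zero {s : Fin k ↪ Fin n} (hs : ∀ j, c j ≠ 0 → j ∈ Set.range s) {j : Fin n}
    (hj : j ∉ Set.range s) : c j = 0 := by
  by_contra h
  exact hj (hs j h)

/-- restriction of a table to the columns `s l` -/
def restr (s : Fin k ↪ Fin n) (hs : ∀ j, c j ≠ 0 → j ∈ Set.range s) (x : CT m n r c) :
    CT m k r (c ∘ s) :=
  ⟨fun i l => x.1 i (s l), fun i => by
      rw [← x.2.1 i]
      exact Fintype.sum_of_injective s s.injective (fun l => x.1 i (s l)) (fun j => x.1 i j)
        (fun j hj => entry_eq_zero x i (not_range_zero hs hj)) (fun l => rfl),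
    fun l => x.2.2 (s l)⟩

/-- extension of a table on the columns `s l` by zero columns -/
noncomputable def extd (s : Fin k ↪ Fin n) (hs : ∀ j, c j ≠ 0 → j ∈ Set.range s) (y : CT m k r (c ∘ s)) :
    CT m n r c :=
  ⟨fun i => Function.extend s (y.1 i) 0, fun i => by
      rw [← y.2.1 i]
      exact (Fintype.sum_of_injective s s.injective (y.1 i) (Function.extend s (y.1 i) 0)
        (fun j hj => Function.extend_apply' _ _ _ hj)
        (fun l => (s.injective.extend_apply _ _ l).symm)).symm,
    fun j => by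
      by_cases hj : j ∈ Set.range s
      · obtain ⟨l, rfl⟩ := hj
        have h := y.2.2 l
        rw [Function.comp_apply] at h
        rw [← h]
        exact Finset.sum_congr rfl (fun i _ => s.injective.extend_apply _ _ l)
      · rw [not_range_zero hs hj]
        exact Finset.sum_eq_zero (fun i _ => Function.extend_apply' _ _ _ hj)⟩

theorem restr_val (s : Fin k ↪ Fin n) (hs : ∀ j, c j ≠ 0 → j ∈ Set.range s) (x : CT m n r c)
    (i : Fin m) (l : Fin k) : (restr s hs x).1 i l = x.1 i (s l) := rfl

/-- a row is the extension by zero of its restriction -/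
theorem row_eq_extend (s : Fin k ↪ Fin n) (hs : ∀ j, c j ≠ 0 → j ∈ Set.range s)
    (x : CT m n r c) (i : Fin m) : x.1 i = Function.extend s ((restr s hs x).1 i) 0 := by
  funext j
  by_cases hj : j ∈ Set.range s
  · obtain ⟨l, rfl⟩ := hj
    rw [s.injective.extend_apply]
    rfl
  · rw [Function.extend_apply' _ _ _ hj]
    exact entry_eq_zero x i (not_range_zero hs hj)

/-- the tables with margins `r`, `c` and the tables with margins `r`, `c ∘ s` -/
noncomputable def restrEquiv (s : Fin k ↪ Fin n) (hs : ∀ j, c j ≠ 0 → j ∈ Set.range s) :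
    CT m n r c ≃ CT m k r (c ∘ s) where
  toFun := restr s hs
  invFun := extd s hs
  left_inv x := by
    apply Subtype.ext
    funext i
    exact (row_eq_extend s hs x i).symm
  right_inv y := by
    apply Subtype.ext
    funext i l
    exact s.injective.extend_apply _ _ l

end restr

/-- **Reduction to the support columns.**  If the range of `s` contains every column with
nonzero sum, the row form for the margins `r`, `c ∘ s` implies the row form for `r`, `c`. -/
theorem rowForm_of_embedding {n k : ℕ} {r : Fin 3 → ℕ} {c : Fin n → ℕ} (s : Fin k ↪ Fin n)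
    (hs : ∀ j, c j ≠ 0 → j ∈ Set.range s) (h : RowForm r (c ∘ s)) : RowForm r c := by
  intro g h0
  have key : ∀ (x : CT 3 n r c) (i : Fin 3),
      g i (x.1 i) = g i (Function.extend s ((restr s hs x).1 i) 0) := by
    intro x i
    rw [← row_eq_extend s hs x i]
  have tr : ∀ F : CT 3 k r (c ∘ s) → ℝ, ∑ x : CT 3 n r c, F (restr s hs x) = ∑ y, F y :=
    fun F => Equiv.sum_comp (restrEquiv s hs) F
  have h0' : ∀ i, ∑ y : CT 3 k r (c ∘ s), g i (Function.extend s (y.1 i) 0) = 0 := by
    intro i
    rw [← tr (fun y => g i (Function.extend s (y.1 i) 0)), ← h0 i]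
    exact Finset.sum_congr rfl (fun x _ => (key x i).symm)
  have hmain := h (fun i v => g i (Function.extend s v 0)) h0'
  have e1 : ∑ x : CT 3 n r c, (∑ i, g i (x.1 i)) ^ 2
      = ∑ y : CT 3 k r (c ∘ s), (∑ i, g i (Function.extend s (y.1 i) 0)) ^ 2 := by
    rw [← tr (fun y => (∑ i, g i (Function.extend s (y.1 i) 0)) ^ 2)]
    refine Finset.sum_congr rfl (fun x _ => ?_)
    congr 1
    exact Finset.sum_congr rfl (fun i _ => key x i)
  have e2 : ∑ x : CT 3 n r c, ∑ i, g i (x.1 i) ^ 2
      = ∑ y : CT 3 k r (c ∘ s), ∑ i, g i (Function.extend s (y.1 i) 0) ^ 2 := by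
    rw [← tr (fun y => ∑ i, g i (Function.extend s (y.1 i) 0) ^ 2)]
    refine Finset.sum_congr rfl (fun x _ => ?_)
    exact Finset.sum_congr rfl (fun i _ => by rw [key x i])
  rw [e1, e2]
  exact hmain

/-- **Converse reduction.**  If the range of `s` contains every column with nonzero sum, the row
form for the margins `r`, `c` implies the row form for `r`, `c ∘ s`. -/
theorem rowForm_comp_of_rowForm {n k : ℕ} {r : Fin 3 → ℕ} {c : Fin n → ℕ} (s : Fin k ↪ Fin n)
    (hs : ∀ j, c j ≠ 0 → j ∈ Set.range s) (h : RowForm r c) : RowForm r (c ∘ s) := by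
  intro g h0
  have tr : ∀ F : CT 3 k r (c ∘ s) → ℝ, ∑ x : CT 3 n r c, F (restr s hs x) = ∑ y, F y :=
    fun F => Equiv.sum_comp (restrEquiv s hs) F
  have h0' : ∀ i, ∑ x : CT 3 n r c, g i ((x.1 i) ∘ s) = 0 := by
    intro i
    rw [← h0 i, ← tr (fun y => g i (y.1 i))]
    rfl
  have hmain := h (fun i v => g i (v ∘ s)) h0'
  rw [← tr (fun y => (∑ i, g i (y.1 i)) ^ 2), ← tr (fun y => ∑ i, g i (y.1 i) ^ 2)]
  exact hmain

/-- An injection onto the columns with nonzero sum along which the column sums are positive and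
nondecreasing; the sum of the column sums is unchanged. -/
theorem exists_sorted_support {n : ℕ} (c : Fin n → ℕ) :
    ∃ (k : ℕ) (s : Fin k ↪ Fin n), (∀ j, c j ≠ 0 → j ∈ Set.range s) ∧ (∀ l, 0 < c (s l)) ∧
      Monotone (c ∘ s) ∧ ∑ l, c (s l) = ∑ j, c j := by
  classical
  set S : Finset (Fin n) := univ.filter (fun j => c j ≠ 0) with hS
  set s0 : Fin S.card ↪ Fin n := (S.orderEmbOfFin rfl).toEmbedding with hs0
  have hr0 : Set.range s0 = ↑S := Finset.range_orderEmbOfFin S rfl
  set σ : Equiv.Perm (Fin S.card) := Tuple.sort (c ∘ s0) with hσ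
  refine ⟨S.card, σ.toEmbedding.trans s0, ?_, ?_, ?_, ?_⟩
  · intro j hj
    have hjS : j ∈ Set.range s0 := by
      rw [hr0]
      exact Finset.mem_coe.mpr (Finset.mem_filter.mpr ⟨Finset.mem_univ j, hj⟩)
    obtain ⟨l, rfl⟩ := hjS
    exact ⟨σ.symm l, by simp⟩
  · intro l
    have hmem : s0 (σ l) ∈ Set.range s0 := ⟨σ l, rfl⟩
    rw [hr0] at hmem
    have h1 := (Finset.mem_filter.mp (Finset.mem_coe.mp hmem)).2
    exact Nat.pos_of_ne_zero h1
  · have h := Tuple.monotone_sort (c ∘ s0)
    exact h
  · have hzero : ∀ j, j ∉ Set.range (σ.toEmbedding.trans s0) → c j = 0 := by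
      intro j hj
      by_contra hne
      have hjS : j ∈ Set.range s0 := by
        rw [hr0]
        exact Finset.mem_coe.mpr (Finset.mem_filter.mpr ⟨Finset.mem_univ j, hne⟩)
      obtain ⟨l, rfl⟩ := hjS
      exact hj ⟨σ.symm l, by simp⟩
    exact Fintype.sum_of_injective (σ.toEmbedding.trans s0) (σ.toEmbedding.trans s0).injective
      (fun l => c ((σ.toEmbedding.trans s0) l)) c hzero (fun l => rfl)

/-- the sum of the column sums is the sum of the row sums when a table exists -/
theorem sum_col_eq_sum_row {m n : ℕ} {r : Fin m → ℕ} {c : Fin n → ℕ} (x : CT m n r c) :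
    ∑ j, c j = ∑ i, r i := by
  have h1 : ∑ j, c j = ∑ j, ∑ i, x.1 i j := Finset.sum_congr rfl (fun j _ => (x.2.2 j).symm)
  rw [h1, Finset.sum_comm]
  exact Finset.sum_congr rfl (fun i _ => x.2.1 i)

/-- the row form holds trivially when there is no table -/
theorem rowForm_of_isEmpty {n : ℕ} {r : Fin 3 → ℕ} {c : Fin n → ℕ} (h : IsEmpty (CT 3 n r c)) :
    RowForm r c := by
  intro g _
  rw [Finset.univ_eq_empty, Finset.sum_empty, Finset.sum_empty, mul_zero]

/-- **Canonical form.**  If the row form holds for the row sums `r` and every positive,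
nondecreasing column-sum vector with the same total, it holds for `r` and every column-sum
vector. -/
theorem rowForm_of_canonical {r : Fin 3 → ℕ}
    (h : ∀ (k : ℕ) (c' : Fin k → ℕ), (∀ l, 0 < c' l) → Monotone c' → ∑ l, c' l = ∑ i, r i →
      RowForm r c')
    {n : ℕ} (c : Fin n → ℕ) : RowForm r c := by
  by_cases hE : IsEmpty (CT 3 n r c)
  · exact rowForm_of_isEmpty hE
  · obtain ⟨x⟩ := not_isEmpty_iff.mp hE
    obtain ⟨k, s, hs, hpos, hmono, hsum⟩ := exists_sorted_support c
    refine rowForm_of_embedding s hs (h k (c ∘ s) hpos hmono ?_)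
    rw [← sum_col_eq_sum_row x, ← hsum]
    rfl

/-- the columns with nonzero sum are at most as many as the sum of the column sums -/
theorem card_support_le {n : ℕ} (c : Fin n → ℕ) :
    (univ.filter (fun j => c j ≠ 0)).card ≤ ∑ j, c j := by
  classical
  have h1 : ∑ j ∈ univ.filter (fun j => c j ≠ 0), 1 ≤ ∑ j ∈ univ.filter (fun j => c j ≠ 0), c j :=
    Finset.sum_le_sum (fun j hj => Nat.one_le_iff_ne_zero.mpr (Finset.mem_filter.mp hj).2)
  have h2 : ∑ j ∈ univ.filter (fun j => c j ≠ 0), c j ≤ ∑ j, c j :=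
    Finset.sum_le_sum_of_subset (Finset.filter_subset _ _)
  rw [Finset.sum_const, smul_eq_mul, mul_one] at h1
  exact h1.trans h2

/-- **Reduction to six sorted columns.**  For row sums with total at most six, the row form of
the three-row inequality for every nondecreasing column-sum vector on six columns gives the row
form for every number of columns and every column-sum vector. -/
theorem rows_of_canonical (r : Fin 3 → ℕ) (hr : ∑ k, r k ≤ 6)
    (H : ∀ c6 : Fin 6 → ℕ, Monotone c6 → ∀ g : Fin 3 → (Fin 6 → ℕ) → ℝ,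
      (∀ k, ∑ x : CT 3 6 r c6, g k (x.1 k) = 0) →
      ∑ x : CT 3 6 r c6, (∑ k, g k (x.1 k)) ^ 2 ≤ 2 * ∑ x : CT 3 6 r c6, ∑ k, g k (x.1 k) ^ 2)
    {n : ℕ} (c : Fin n → ℕ) (g : Fin 3 → (Fin n → ℕ) → ℝ)
    (h0 : ∀ k, ∑ x : CT 3 n r c, g k (x.1 k) = 0) :
    ∑ x : CT 3 n r c, (∑ k, g k (x.1 k)) ^ 2 ≤ 2 * ∑ x : CT 3 n r c, ∑ k, g k (x.1 k) ^ 2 := by
  classical
  have hH : ∀ c6 : Fin 6 → ℕ, Monotone c6 → RowForm r c6 := fun c6 hc6 => H c6 hc6
  suffices hR : RowForm r c from hR g h0
  by_cases hE : IsEmpty (CT 3 n r c)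
  · exact rowForm_of_isEmpty hE
  obtain ⟨x⟩ := not_isEmpty_iff.mp hE
  -- the support of `c`
  set S : Finset (Fin n) := univ.filter (fun j => c j ≠ 0) with hS
  have hk : S.card ≤ 6 := by
    have h1 := card_support_le c
    rw [sum_col_eq_sum_row x] at h1
    exact h1.trans hr
  set s0 : Fin S.card ↪ Fin n := (S.orderEmbOfFin rfl).toEmbedding with hs0
  have hr0 : Set.range s0 = ↑S := Finset.range_orderEmbOfFin S rfl
  have hs0r : ∀ j, c j ≠ 0 → j ∈ Set.range s0 := by
    intro j hj
    rw [hr0]
    exact Finset.mem_coe.mpr (Finset.mem_filter.mpr ⟨Finset.mem_univ j, hj⟩)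
  refine rowForm_of_embedding s0 hs0r ?_
  -- padding to six columns
  set ι : Fin S.card ↪ Fin 6 := (Fin.castLEEmb hk) with hι
  set c6 : Fin 6 → ℕ := Function.extend ι (c ∘ s0) 0 with hc6
  have hcomp : c6 ∘ ι = c ∘ s0 := by
    funext l
    exact ι.injective.extend_apply _ _ l
  have hιr : ∀ j, c6 j ≠ 0 → j ∈ Set.range ι := by
    intro j hj
    by_contra hcon
    exact hj (Function.extend_apply' _ _ _ hcon)
  rw [← hcomp]
  refine rowForm_comp_of_rowForm ι hιr ?_
  -- sorting
  set σ : Equiv.Perm (Fin 6) := Tuple.sort c6 with hσ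
  have hσr : ∀ j, c6 j ≠ 0 → j ∈ Set.range σ.toEmbedding := fun j _ => ⟨σ.symm j, by simp⟩
  exact rowForm_of_embedding σ.toEmbedding hσr (hH _ (Tuple.monotone_sort c6))

end Vale.Agent.Lib.P328.H30
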