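import Mathlib
import Vale.Agent.Lib.P328.helper30.ColReduce

/-!
P328: the finitely many classes of margins behind the three-row inequality for row sums in
`{1, 2}`.

* `rowForm_perm` : the row form is invariant under a permutation of the three rows.
* `row_pattern_cases` : a triple of row sums in `{1, 2}` with at most one entry equal to one is
  one of `(2,2,2)`, `(2,2,1)`, `(2,1,2)`, `(1,2,2)`.
* `sorted6_sum6`, `sorted6_sum5` : the nondecreasing column-sum vectors on six columns with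
  total six (eleven vectors) and with total five (seven vectors).
* `rowForm_of_drop` : leading columns with sum zero can be dropped.
* `rows_le_two6_of_classes`, `rows_le_two6_of_classes'` : the row form for all row sums in
  `{1, 2}` with at most one entry equal to one and all nondecreasing column sums on six columns,
  from the row form for the explicit classes.
-/

namespace Vale.Agent.Lib.P328.H30

open Finset
open Vale.Agent.Lib.P328.RP

section perm

variable {n : ℕ} {r : Fin 3 → ℕ} {c : Fin n → ℕ}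

/-- permuting the rows of a table -/
def permRows (σ : Equiv.Perm (Fin 3)) (x : CT 3 n r c) : CT 3 n (r ∘ σ) c :=
  ⟨fun i => x.1 (σ i), fun i => x.2.1 (σ i), fun j => by
    rw [← x.2.2 j]
    exact Equiv.sum_comp σ (fun i => x.1 i j)⟩

/-- permuting the rows of a table, the inverse direction -/
def unpermRows (σ : Equiv.Perm (Fin 3)) (y : CT 3 n (r ∘ σ) c) : CT 3 n r c :=
  ⟨fun i => y.1 (σ.symm i), fun i => by
    have h := y.2.1 (σ.symm i)
    simp only [Function.comp_apply, Equiv.apply_symm_apply] at h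
    exact h, fun j => by
    rw [← y.2.2 j]
    exact Equiv.sum_comp σ.symm (fun i => y.1 i j)⟩

/-- permuting the rows is a bijection between the two sets of tables -/
def permRowsEquiv (σ : Equiv.Perm (Fin 3)) : CT 3 n r c ≃ CT 3 n (r ∘ σ) c where
  toFun := permRows σ
  invFun := unpermRows σ
  left_inv x := by
    apply Subtype.ext
    funext i
    simp only [permRows, unpermRows, Equiv.apply_symm_apply]
  right_inv y := by
    apply Subtype.ext
    funext i
    simp only [permRows, unpermRows, Equiv.symm_apply_apply]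

theorem permRows_val (σ : Equiv.Perm (Fin 3)) (x : CT 3 n r c) (i : Fin 3) :
    (permRowsEquiv σ x).1 i = x.1 (σ i) := rfl

/-- **Row permutation.**  The row form for the permuted row sums `r ∘ σ` gives the row form
for the row sums `r`. -/
theorem rowForm_perm (σ : Equiv.Perm (Fin 3)) (h : RowForm (r ∘ σ) c) : RowForm r c := by
  intro g h0
  have tr : ∀ F : CT 3 n (r ∘ σ) c → ℝ, ∑ x : CT 3 n r c, F (permRowsEquiv σ x) = ∑ y, F y :=
    fun F => Equiv.sum_comp (permRowsEquiv σ) F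
  have h0' : ∀ k, ∑ y : CT 3 n (r ∘ σ) c, g (σ k) (y.1 k) = 0 := by
    intro k
    rw [← tr (fun y => g (σ k) (y.1 k)), ← h0 (σ k)]
    rfl
  have hmain := h (fun k => g (σ k)) h0'
  have e1 : ∑ x : CT 3 n r c, (∑ k, g k (x.1 k)) ^ 2
      = ∑ y : CT 3 n (r ∘ σ) c, (∑ k, g (σ k) (y.1 k)) ^ 2 := by
    rw [← tr (fun y => (∑ k, g (σ k) (y.1 k)) ^ 2)]
    refine Finset.sum_congr rfl (fun x _ => ?_)
    congr 1
    exact (Equiv.sum_comp σ (fun k => g k (x.1 k))).symm
  have e2 : ∑ x : CT 3 n r c, ∑ k, g k (x.1 k) ^ 2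
      = ∑ y : CT 3 n (r ∘ σ) c, ∑ k, g (σ k) (y.1 k) ^ 2 := by
    rw [← tr (fun y => ∑ k, g (σ k) (y.1 k) ^ 2)]
    refine Finset.sum_congr rfl (fun x _ => ?_)
    exact (Equiv.sum_comp σ (fun k => g k (x.1 k) ^ 2)).symm
  rw [e1, e2]
  exact hmain

end perm

/-- **Dropping leading zero columns.**  If the first `n - k` columns have sum zero and the
remaining `k` column sums are `c'`, the row form for `c'` gives the row form for `c`. -/
theorem rowForm_of_drop {r : Fin 3 → ℕ} {n k : ℕ} (hk : k ≤ n) (c : Fin n → ℕ)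
    (c' : Fin k → ℕ) (hz : ∀ j : Fin n, j.val < n - k → c j = 0)
    (hc : ∀ l : Fin k, ∀ h : l.val + (n - k) < n, c ⟨l.val + (n - k), h⟩ = c' l)
    (h : RowForm r c') : RowForm r c := by
  have hlt : ∀ l : Fin k, l.val + (n - k) < n := fun l => by have := l.isLt; omega
  let s : Fin k ↪ Fin n := ⟨fun l => ⟨l.val + (n - k), hlt l⟩, fun a b hab => by
    have h1 := Fin.mk.inj hab
    exact Fin.ext (by omega)⟩
  have hs : ∀ j, c j ≠ 0 → j ∈ Set.range s := by
    intro j hj
    have h1 : ¬ j.val < n - k := fun h2 => hj (hz j h2)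
    have h3 := j.isLt
    refine ⟨⟨j.val - (n - k), by omega⟩, ?_⟩
    apply Fin.ext
    change j.val - (n - k) + (n - k) = j.val
    omega
  have hcs : c ∘ s = c' := by
    funext l
    exact hc l (hlt l)
  refine rowForm_of_embedding s hs ?_
  rw [hcs]
  exact h

/-- A triple of row sums in `{1, 2}` in which no two distinct entries are at most one is one
of `(2,2,2)`, `(2,2,1)`, `(2,1,2)`, `(1,2,2)`. -/
theorem row_pattern_cases (r : Fin 3 → ℕ) (hr : ∀ k, r k = 1 ∨ r k = 2)
    (hr2 : ∀ a b : Fin 3, a ≠ b → 2 ≤ r a ∨ 2 ≤ r b) :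
    r = ![2, 2, 2] ∨ r = ![2, 2, 1] ∨ r = ![2, 1, 2] ∨ r = ![1, 2, 2] := by
  have e : r = ![r 0, r 1, r 2] := by
    funext k
    fin_cases k <;> rfl
  have h01 := hr2 0 1 (by decide)
  have h02 := hr2 0 2 (by decide)
  have h12 := hr2 1 2 (by decide)
  rcases hr 0 with h0 | h0 <;> rcases hr 1 with h1 | h1 <;> rcases hr 2 with h2 | h2
  · omega
  · omega
  · omega
  · right; right; right
    rw [e, h0, h1, h2]
  · omega
  · right; right; left
    rw [e, h0, h1, h2]
  · right; left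
    rw [e, h0, h1, h2]
  · left
    rw [e, h0, h1, h2]

/-- the eleven nondecreasing vectors on six columns with total six -/
def parts6 : List (Fin 6 → ℕ) :=
  [![0, 0, 0, 0, 0, 6], ![0, 0, 0, 0, 1, 5], ![0, 0, 0, 0, 2, 4], ![0, 0, 0, 0, 3, 3],
   ![0, 0, 0, 1, 1, 4], ![0, 0, 0, 1, 2, 3], ![0, 0, 0, 2, 2, 2], ![0, 0, 1, 1, 1, 3],
   ![0, 0, 1, 1, 2, 2], ![0, 1, 1, 1, 1, 2], ![1, 1, 1, 1, 1, 1]]

/-- the seven nondecreasing vectors on six columns with total five -/
def parts5 : List (Fin 6 → ℕ) :=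
  [![0, 0, 0, 0, 0, 5], ![0, 0, 0, 0, 1, 4], ![0, 0, 0, 0, 2, 3], ![0, 0, 0, 1, 1, 3],
   ![0, 0, 0, 1, 2, 2], ![0, 0, 1, 1, 1, 2], ![0, 1, 1, 1, 1, 1]]

theorem vec6_eq (c : Fin 6 → ℕ) : c = ![c 0, c 1, c 2, c 3, c 4, c 5] := by
  funext j
  fin_cases j <;> rfl

/-- a nondecreasing vector on six columns with total six is one of the eleven vectors of
`parts6` -/
theorem sorted6_sum6 (c : Fin 6 → ℕ) (hc : Monotone c) (hs : ∑ j, c j = 6) : c ∈ parts6 := by
  have h01 : c 0 ≤ c 1 := hc (by decide)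
  have h12 : c 1 ≤ c 2 := hc (by decide)
  have h23 : c 2 ≤ c 3 := hc (by decide)
  have h34 : c 3 ≤ c 4 := hc (by decide)
  have h45 : c 4 ≤ c 5 := hc (by decide)
  rw [Fin.sum_univ_six] at hs
  rw [vec6_eq c]
  generalize c 0 = a0 at *
  generalize c 1 = a1 at *
  generalize c 2 = a2 at *
  generalize c 3 = a3 at *
  generalize c 4 = a4 at *
  generalize c 5 = a5 at *
  have b0 : a0 ≤ 1 := by omega
  have b1 : a1 ≤ 1 := by omega
  have b2 : a2 ≤ 1 := by omega
  have b3 : a3 ≤ 2 := by omega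
  have b4 : a4 ≤ 3 := by omega
  have h5 : a5 = 6 - a0 - a1 - a2 - a3 - a4 := by omega
  subst h5
  interval_cases a0 <;> interval_cases a1 <;> interval_cases a2 <;> interval_cases a3 <;>
    interval_cases a4 <;> first
      | omega
      | simp [parts6]

/-- a nondecreasing vector on six columns with total five is one of the seven vectors of
`parts5` -/
theorem sorted6_sum5 (c : Fin 6 → ℕ) (hc : Monotone c) (hs : ∑ j, c j = 5) : c ∈ parts5 := by
  have h01 : c 0 ≤ c 1 := hc (by decide)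
  have h12 : c 1 ≤ c 2 := hc (by decide)
  have h23 : c 2 ≤ c 3 := hc (by decide)
  have h34 : c 3 ≤ c 4 := hc (by decide)
  have h45 : c 4 ≤ c 5 := hc (by decide)
  rw [Fin.sum_univ_six] at hs
  rw [vec6_eq c]
  generalize c 0 = a0 at *
  generalize c 1 = a1 at *
  generalize c 2 = a2 at *
  generalize c 3 = a3 at *
  generalize c 4 = a4 at *
  generalize c 5 = a5 at *
  have b0 : a0 = 0 := by omega
  have b1 : a1 ≤ 1 := by omega
  have b2 : a2 ≤ 1 := by omega
  have b3 : a3 ≤ 1 := by omega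
  have b4 : a4 ≤ 2 := by omega
  subst b0
  have h5 : a5 = 5 - a1 - a2 - a3 - a4 := by omega
  subst h5
  interval_cases a1 <;> interval_cases a2 <;> interval_cases a3 <;>
    interval_cases a4 <;> first
      | omega
      | simp [parts5]

/-- a statement about all vectors of `parts6` from the eleven explicit instances -/
theorem forall_parts6 (P : (Fin 6 → ℕ) → Prop)
    (h1 : P ![0, 0, 0, 0, 0, 6]) (h2 : P ![0, 0, 0, 0, 1, 5]) (h3 : P ![0, 0, 0, 0, 2, 4])
    (h4 : P ![0, 0, 0, 0, 3, 3]) (h5 : P ![0, 0, 0, 1, 1, 4]) (h6 : P ![0, 0, 0, 1, 2, 3])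
    (h7 : P ![0, 0, 0, 2, 2, 2]) (h8 : P ![0, 0, 1, 1, 1, 3]) (h9 : P ![0, 0, 1, 1, 2, 2])
    (h10 : P ![0, 1, 1, 1, 1, 2]) (h11 : P ![1, 1, 1, 1, 1, 1]) : ∀ c ∈ parts6, P c := by
  intro c hc
  simp only [parts6, List.mem_cons, List.mem_nil_iff, or_false] at hc
  rcases hc with rfl | rfl | rfl | rfl | rfl | rfl | rfl | rfl | rfl | rfl | rfl
  all_goals assumption

/-- a statement about all vectors of `parts5` from the seven explicit instances -/
theorem forall_parts5 (P : (Fin 6 → ℕ) → Prop)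
    (h1 : P ![0, 0, 0, 0, 0, 5]) (h2 : P ![0, 0, 0, 0, 1, 4]) (h3 : P ![0, 0, 0, 0, 2, 3])
    (h4 : P ![0, 0, 0, 1, 1, 3]) (h5 : P ![0, 0, 0, 1, 2, 2]) (h6 : P ![0, 0, 1, 1, 1, 2])
    (h7 : P ![0, 1, 1, 1, 1, 1]) : ∀ c ∈ parts5, P c := by
  intro c hc
  simp only [parts5, List.mem_cons, List.mem_nil_iff, or_false] at hc
  rcases hc with rfl | rfl | rfl | rfl | rfl | rfl | rfl
  all_goals assumption

/-- the row form for margins whose totals differ (there is no table) -/
theorem rowForm_of_sum_ne {n : ℕ} {r : Fin 3 → ℕ} {c : Fin n → ℕ}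
    (h : ∑ j, c j ≠ ∑ i, r i) : RowForm r c := by
  apply rowForm_of_isEmpty
  refine ⟨fun x => h ?_⟩
  exact sum_col_eq_sum_row x

/-- **From the explicit classes to all sorted column sums (32 classes).**  The row form for
all row sums in `{1, 2}` with at most one entry equal to one and all nondecreasing column sums
on six columns, given the row form for the eleven classes of `(2,2,2)` and the seven classes of
each of `(2,2,1)`, `(2,1,2)`, `(1,2,2)`. -/
theorem rowForm6_of_classes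
    (H222 : ∀ c ∈ parts6, RowForm ![2, 2, 2] c)
    (H221 : ∀ c ∈ parts5, RowForm ![2, 2, 1] c)
    (H212 : ∀ c ∈ parts5, RowForm ![2, 1, 2] c)
    (H122 : ∀ c ∈ parts5, RowForm ![1, 2, 2] c)
    (r : Fin 3 → ℕ) (hr : ∀ k, r k = 1 ∨ r k = 2)
    (hr2 : ∀ a b : Fin 3, a ≠ b → 2 ≤ r a ∨ 2 ≤ r b)
    (c6 : Fin 6 → ℕ) (hc : Monotone c6) : RowForm r c6 := by
  rcases row_pattern_cases r hr hr2 with rfl | rfl | rfl | rfl
  · by_cases hs : ∑ j, c6 j = 6
    · exact H222 c6 (sorted6_sum6 c6 hc hs)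
    · exact rowForm_of_sum_ne (by rw [Fin.sum_univ_three]; exact hs)
  · by_cases hs : ∑ j, c6 j = 5
    · exact H221 c6 (sorted6_sum5 c6 hc hs)
    · exact rowForm_of_sum_ne (by rw [Fin.sum_univ_three]; exact hs)
  · by_cases hs : ∑ j, c6 j = 5
    · exact H212 c6 (sorted6_sum5 c6 hc hs)
    · exact rowForm_of_sum_ne (by rw [Fin.sum_univ_three]; exact hs)
  · by_cases hs : ∑ j, c6 j = 5
    · exact H122 c6 (sorted6_sum5 c6 hc hs)
    · exact rowForm_of_sum_ne (by rw [Fin.sum_univ_three]; exact hs)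

/-- the classes of `(2,1,2)` from the classes of `(2,2,1)` by a row permutation -/
theorem rowForm_212_of_221 {n : ℕ} {c : Fin n → ℕ} (h : RowForm ![2, 2, 1] c) :
    RowForm ![2, 1, 2] c := by
  refine rowForm_perm (Equiv.swap 1 2) ?_
  have e : (![2, 1, 2] : Fin 3 → ℕ) ∘ (Equiv.swap (1 : Fin 3) 2) = ![2, 2, 1] := by
    funext k
    fin_cases k <;> rfl
  rw [e]
  exact h

/-- the classes of `(1,2,2)` from the classes of `(2,2,1)` by a row permutation -/
theorem rowForm_122_of_221 {n : ℕ} {c : Fin n → ℕ} (h : RowForm ![2, 2, 1] c) :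
    RowForm ![1, 2, 2] c := by
  refine rowForm_perm (Equiv.swap 0 2) ?_
  have e : (![1, 2, 2] : Fin 3 → ℕ) ∘ (Equiv.swap (0 : Fin 3) 2) = ![2, 2, 1] := by
    funext k
    fin_cases k <;> rfl
  rw [e]
  exact h

/-- **From the explicit classes to all sorted column sums (18 classes).**  As
`rowForm6_of_classes`, with the classes of `(2,1,2)` and `(1,2,2)` obtained from those of
`(2,2,1)` by a row permutation. -/
theorem rowForm6_of_classes'
    (H222 : ∀ c ∈ parts6, RowForm ![2, 2, 2] c)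
    (H221 : ∀ c ∈ parts5, RowForm ![2, 2, 1] c)
    (r : Fin 3 → ℕ) (hr : ∀ k, r k = 1 ∨ r k = 2)
    (hr2 : ∀ a b : Fin 3, a ≠ b → 2 ≤ r a ∨ 2 ≤ r b)
    (c6 : Fin 6 → ℕ) (hc : Monotone c6) : RowForm r c6 :=
  rowForm6_of_classes H222 H221 (fun c hcm => rowForm_212_of_221 (H221 c hcm))
    (fun c hcm => rowForm_122_of_221 (H221 c hcm)) r hr hr2 c6 hc

/-- **The interface of the assembly.**  The three-row inequality in the row form, sums written
out, for all row sums in `{1, 2}` with at most one entry equal to one and all nondecreasing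
column sums on six columns, from the eighteen explicit classes. -/
theorem rows_le_two6_of_classes
    (H222 : ∀ c ∈ parts6, RowForm ![2, 2, 2] c)
    (H221 : ∀ c ∈ parts5, RowForm ![2, 2, 1] c)
    (r : Fin 3 → ℕ) (hr : ∀ k, r k = 1 ∨ r k = 2)
    (hr2 : ∀ a b : Fin 3, a ≠ b → 2 ≤ r a ∨ 2 ≤ r b)
    (c6 : Fin 6 → ℕ) (hc : Monotone c6) (g : Fin 3 → (Fin 6 → ℕ) → ℝ)
    (h0 : ∀ k, ∑ x : CT 3 6 r c6, g k (x.1 k) = 0) :
    ∑ x : CT 3 6 r c6, (∑ k, g k (x.1 k)) ^ 2
      ≤ 2 * ∑ x : CT 3 6 r c6, ∑ k, g k (x.1 k) ^ 2 :=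
  rowForm6_of_classes' H222 H221 r hr hr2 c6 hc g h0

end Vale.Agent.Lib.P328.H30
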