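import Mathlib

/-!
P328: the window lemma, a weighted variance bound along a window of a log-concave sequence.

For positive weights `w 0, …, w N` with `w (τ + 1) / w τ` nonincreasing, values `φ0 ρ` whose
increments satisfy `(φ0 (τ + 1) - φ0 τ) ^ 2 ≤ (w (τ + 1) / w τ - w (τ + 2) / w (τ + 1)) * e τ`,
and the values `φ ρ = φ0 ρ + σ [ρ = 0]`, the weighted variance
`(∑ w) (∑ w φ ^ 2) - (∑ w φ) ^ 2` is at most `(∑ w) (∑ w (τ + 1) e τ + σ ^ 2 w 1)`.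
-/

namespace Vale.Agent.Lib.P328.H30

open Finset

/-- the Cauchy-Schwarz inequality in the plane, in the form used along a path -/
theorem cs_two (x δ A B α β : ℝ) (hA : 0 ≤ A) (hB : 0 ≤ B) (hα : 0 ≤ α) (hβ : 0 ≤ β)
    (hx : x ^ 2 ≤ A * B) (hδ : δ ^ 2 ≤ α * β) : (x + δ) ^ 2 ≤ (A + α) * (B + β) := by
  have h2 : x ^ 2 * δ ^ 2 ≤ (A * B) * (α * β) :=
    mul_le_mul hx hδ (sq_nonneg δ) (mul_nonneg hA hB)
  have h1 : (2 * x * δ) ^ 2 ≤ (A * β + α * B) ^ 2 := by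
    nlinarith [sq_nonneg (A * β - α * B)]
  have h3 : 0 ≤ A * β + α * B := by positivity
  have h4 : 2 * x * δ ≤ A * β + α * B :=
    (le_abs_self _).trans (abs_le_of_sq_le_sq h1 h3)
  nlinarith

/-- Cauchy-Schwarz along a path: the square of the increment of `φ0` from `ρ` to `M` is at most
the decrease of `R` times the sum of the `e τ`. -/
theorem chain_cs (R φ0 e : ℕ → ℝ) (ρ : ℕ) : ∀ M, ρ ≤ M →
    (∀ τ, ρ ≤ τ → τ < M → R (τ + 1) ≤ R τ) →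
    (∀ τ, ρ ≤ τ → τ < M → 0 ≤ e τ) →
    (∀ τ, ρ ≤ τ → τ < M → (φ0 (τ + 1) - φ0 τ) ^ 2 ≤ (R τ - R (τ + 1)) * e τ) →
    R M ≤ R ρ ∧ 0 ≤ ∑ τ ∈ Ico ρ M, e τ ∧
      (φ0 M - φ0 ρ) ^ 2 ≤ (R ρ - R M) * ∑ τ ∈ Ico ρ M, e τ := by
  intro M hM
  induction M, hM using Nat.le_induction with
  | base =>
    intro _ _ _
    simp
  | succ M hM ih =>
    intro h1 h2 h3
    obtain ⟨i1, i2, i3⟩ := ih (fun τ a b => h1 τ a (by omega)) (fun τ a b => h2 τ a (by omega))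
      (fun τ a b => h3 τ a (by omega))
    have hRM := h1 M hM (by omega)
    have heM := h2 M hM (by omega)
    have hincM := h3 M hM (by omega)
    rw [Finset.sum_Ico_succ_top hM]
    refine ⟨hRM.trans i1, add_nonneg i2 heM, ?_⟩
    have key := cs_two (φ0 M - φ0 ρ) (φ0 (M + 1) - φ0 M) (R ρ - R M) (∑ τ ∈ Ico ρ M, e τ)
      (R M - R (M + 1)) (e M) (by linarith) i2 (by linarith) heM i3 hincM
    have e1 : φ0 (M + 1) - φ0 ρ = (φ0 M - φ0 ρ) + (φ0 (M + 1) - φ0 M) := by ring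
    have e2 : R ρ - R (M + 1) = (R ρ - R M) + (R M - R (M + 1)) := by ring
    rw [e1, e2]
    exact key

/-- exchanging the order of summation over a triangle -/
theorem sum_tri_swap (a e : ℕ → ℝ) (N : ℕ) :
    ∑ ρ ∈ range (N + 1), a ρ * ∑ τ ∈ Ico ρ (N + 1), e τ
      = ∑ τ ∈ range (N + 1), e τ * ∑ ρ ∈ range (τ + 1), a ρ := by
  induction N with
  | zero => simp [mul_comm]
  | succ N ih =>
    have h1 : ∑ ρ ∈ range (N + 1), a ρ * ∑ τ ∈ Ico ρ (N + 1 + 1), e τ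
        = ∑ ρ ∈ range (N + 1), a ρ * ∑ τ ∈ Ico ρ (N + 1), e τ
          + e (N + 1) * ∑ ρ ∈ range (N + 1), a ρ := by
      rw [Finset.mul_sum, ← Finset.sum_add_distrib]
      refine Finset.sum_congr rfl (fun ρ hρ => ?_)
      have hρ' : ρ ≤ N + 1 := by
        have := Finset.mem_range.mp hρ
        omega
      rw [Finset.sum_Ico_succ_top hρ']
      ring
    rw [Finset.sum_range_succ, h1, ih, Finset.sum_range_succ _ (N + 1),
      Finset.sum_range_succ a (N + 1)]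
    have h2 : ∑ τ ∈ Ico (N + 1) (N + 1 + 1), e τ = e (N + 1) := by simp
    rw [h2]
    ring

/-- the weighted variance of `N + 1 + 1` values in terms of that of the first `N + 1` values -/
theorem var_succ (w φ : ℕ → ℝ) (N : ℕ) :
    (∑ ρ ∈ range (N + 1 + 1), w ρ) * (∑ ρ ∈ range (N + 1 + 1), w ρ * φ ρ ^ 2)
        - (∑ ρ ∈ range (N + 1 + 1), w ρ * φ ρ) ^ 2
      = ((∑ ρ ∈ range (N + 1), w ρ) * (∑ ρ ∈ range (N + 1), w ρ * φ ρ ^ 2)
          - (∑ ρ ∈ range (N + 1), w ρ * φ ρ) ^ 2)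
        + ∑ ρ ∈ range (N + 1), w (N + 1) * w ρ * (φ (N + 1) - φ ρ) ^ 2 := by
  have hD : ∑ ρ ∈ range (N + 1), w (N + 1) * w ρ * (φ (N + 1) - φ ρ) ^ 2
      = w (N + 1) * (φ (N + 1) ^ 2 * (∑ ρ ∈ range (N + 1), w ρ)
          - 2 * φ (N + 1) * (∑ ρ ∈ range (N + 1), w ρ * φ ρ)
          + ∑ ρ ∈ range (N + 1), w ρ * φ ρ ^ 2) := by
    rw [Finset.mul_sum, Finset.mul_sum, ← Finset.sum_sub_distrib, ← Finset.sum_add_distrib,
      Finset.mul_sum]
    refine Finset.sum_congr rfl (fun ρ _ => ?_)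
    ring
  rw [hD, Finset.sum_range_succ _ (N + 1), Finset.sum_range_succ _ (N + 1),
    Finset.sum_range_succ _ (N + 1)]
  ring

/-- **The window lemma, with the exact remainder.** -/
theorem window_strong (w φ0 e : ℕ → ℝ) (σ : ℝ) : ∀ N : ℕ,
    (∀ ρ, ρ ≤ N → 0 < w ρ) →
    (∀ τ, τ < N → 0 ≤ e τ) →
    (∀ τ, τ < N → w (τ + 2) * w τ ≤ w (τ + 1) ^ 2) →
    (∀ τ, τ < N → (φ0 (τ + 1) - φ0 τ) ^ 2
      ≤ (w (τ + 1) / w τ - w (τ + 2) / w (τ + 1)) * e τ) →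
    (∑ ρ ∈ range (N + 1), w ρ)
        * (∑ ρ ∈ range (N + 1), w ρ * (φ0 ρ + if ρ = 0 then σ else 0) ^ 2)
        - (∑ ρ ∈ range (N + 1), w ρ * (φ0 ρ + if ρ = 0 then σ else 0)) ^ 2
      ≤ ∑ τ ∈ range (N + 1), e τ * (w (τ + 1) * (∑ ρ ∈ range (N + 1), w ρ)
            - w (N + 1) * ∑ ρ ∈ range (τ + 1), w ρ)
        + σ ^ 2 * (w 1 * (∑ ρ ∈ range (N + 1), w ρ) - w 0 * w (N + 1)) := by
  intro N
  induction N with
  | zero =>
    intro _ _ _ _
    simp only [zero_add, Finset.sum_range_one]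
    apply le_of_eq
    ring
  | succ N ih =>
    intro hw he hR hinc
    have ihN := ih (fun ρ h => hw ρ (by omega)) (fun τ h => he τ (by omega))
      (fun τ h => hR τ (by omega)) (fun τ h => hinc τ (by omega))
    -- the ratios
    have hwpos : ∀ ρ, ρ ≤ N + 1 → 0 < w ρ := hw
    have hw' : 0 < w (N + 1) := hw (N + 1) le_rfl
    have hRmono : ∀ τ, τ < N + 1 → w (τ + 1 + 1) / w (τ + 1) ≤ w (τ + 1) / w τ := by
      intro τ hτ
      have h1 := hwpos τ (by omega)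
      have h2 := hwpos (τ + 1) (by omega)
      rw [div_le_div_iff₀ h2 h1]
      have := hR τ hτ
      nlinarith
    -- the chain bound for each starting point
    have hchain : ∀ ρ, ρ ≤ N + 1 →
        w (N + 1 + 1) / w (N + 1) ≤ w (ρ + 1) / w ρ ∧ 0 ≤ ∑ τ ∈ Ico ρ (N + 1), e τ ∧
        (φ0 (N + 1) - φ0 ρ) ^ 2
          ≤ (w (ρ + 1) / w ρ - w (N + 1 + 1) / w (N + 1)) * ∑ τ ∈ Ico ρ (N + 1), e τ := by
      intro ρ hρ
      exact chain_cs (fun τ => w (τ + 1) / w τ) φ0 e ρ (N + 1) hρ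
        (fun τ _ h => hRmono τ h) (fun τ _ h => he τ h) (fun τ _ h => hinc τ h)
    -- the bound for the new pairs
    have hpair : ∀ ρ, ρ ≤ N →
        w (N + 1) * w ρ * (φ0 (N + 1) - φ0 ρ) ^ 2
          ≤ (w (N + 1) * w (ρ + 1) - w (N + 1 + 1) * w ρ) * ∑ τ ∈ Ico ρ (N + 1), e τ := by
      intro ρ hρ
      obtain ⟨c1, c2, c3⟩ := hchain ρ (by omega)
      have hρpos := hwpos ρ (by omega)
      have e1 : w (N + 1) * w (ρ + 1) - w (N + 1 + 1) * w ρ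
          = (w (N + 1) * w ρ) * (w (ρ + 1) / w ρ - w (N + 1 + 1) / w (N + 1)) := by
        field_simp
      have h := mul_le_mul_of_nonneg_left c3 (mul_pos hw' hρpos).le
      rw [e1, mul_assoc (w (N + 1) * w ρ)]
      exact h
    have hpair0 : w (N + 1) * w 0 * (φ0 (N + 1) - (φ0 0 + σ)) ^ 2
          ≤ (w (N + 1) * w 1 - w (N + 1 + 1) * w 0) * ∑ τ ∈ Ico 0 (N + 1), e τ
            + w (N + 1) * w 0 * (σ ^ 2 + ∑ τ ∈ Ico 0 (N + 1), e τ)
            + (w (N + 1) * w 1 - w (N + 1 + 1) * w 0) * σ ^ 2 := by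
      obtain ⟨c1, c2, c3⟩ := hchain 0 (by omega)
      have h0pos := hwpos 0 (by omega)
      have key := cs_two (φ0 (N + 1) - φ0 0) (-σ) (w (0 + 1) / w 0 - w (N + 1 + 1) / w (N + 1))
        (∑ τ ∈ Ico 0 (N + 1), e τ) 1 (σ ^ 2) (by linarith) c2 zero_le_one (sq_nonneg σ) c3
        (by rw [one_mul]; exact le_of_eq (by ring))
      have e1 : φ0 (N + 1) - (φ0 0 + σ) = φ0 (N + 1) - φ0 0 + -σ := by ring
      have e2 : (w (N + 1) * w 1 - w (N + 1 + 1) * w 0) * ∑ τ ∈ Ico 0 (N + 1), e τ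
            + w (N + 1) * w 0 * (σ ^ 2 + ∑ τ ∈ Ico 0 (N + 1), e τ)
            + (w (N + 1) * w 1 - w (N + 1 + 1) * w 0) * σ ^ 2
          = (w (N + 1) * w 0) * ((w (0 + 1) / w 0 - w (N + 1 + 1) / w (N + 1) + 1)
              * (∑ τ ∈ Ico 0 (N + 1), e τ + σ ^ 2)) := by
        simp only [zero_add]
        field_simp
        ring
      rw [e1, e2]
      exact mul_le_mul_of_nonneg_left key (mul_pos hw' h0pos).le
    -- the sum of the new pairs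
    have hD : ∑ ρ ∈ range (N + 1), w (N + 1) * w ρ
          * ((φ0 (N + 1) + if N + 1 = 0 then σ else 0) - (φ0 ρ + if ρ = 0 then σ else 0)) ^ 2
        ≤ ∑ ρ ∈ range (N + 1), (w (N + 1) * w (ρ + 1) - w (N + 1 + 1) * w ρ)
              * ∑ τ ∈ Ico ρ (N + 1), e τ
          + w (N + 1) * w 0 * (σ ^ 2 + ∑ τ ∈ Ico 0 (N + 1), e τ)
          + (w (N + 1) * w 1 - w (N + 1 + 1) * w 0) * σ ^ 2 := by
      rw [Finset.sum_range_succ', Finset.sum_range_succ' _ N]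
      simp only [Nat.succ_ne_zero, if_false, if_true, add_zero, zero_add]
      have hsum : ∑ ρ ∈ range N, w (N + 1) * w (ρ + 1) * (φ0 (N + 1) - φ0 (ρ + 1)) ^ 2
          ≤ ∑ ρ ∈ range N, (w (N + 1) * w (ρ + 1 + 1) - w (N + 1 + 1) * w (ρ + 1))
              * ∑ τ ∈ Ico (ρ + 1) (N + 1), e τ := by
        refine Finset.sum_le_sum (fun ρ hρ => ?_)
        have := Finset.mem_range.mp hρ
        exact hpair (ρ + 1) (by omega)
      have h0 := hpair0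
      linarith
    -- the increment of the right side
    have hB : ∑ ρ ∈ range (N + 1), (w (N + 1) * w (ρ + 1) - w (N + 1 + 1) * w ρ)
              * ∑ τ ∈ Ico ρ (N + 1), e τ
          + w (N + 1) * w 0 * (σ ^ 2 + ∑ τ ∈ Ico 0 (N + 1), e τ)
          + (w (N + 1) * w 1 - w (N + 1 + 1) * w 0) * σ ^ 2
        = (∑ τ ∈ range (N + 1 + 1), e τ * (w (τ + 1) * (∑ ρ ∈ range (N + 1 + 1), w ρ)
              - w (N + 1 + 1) * ∑ ρ ∈ range (τ + 1), w ρ)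
            + σ ^ 2 * (w 1 * (∑ ρ ∈ range (N + 1 + 1), w ρ) - w 0 * w (N + 1 + 1)))
          - (∑ τ ∈ range (N + 1), e τ * (w (τ + 1) * (∑ ρ ∈ range (N + 1), w ρ)
              - w (N + 1) * ∑ ρ ∈ range (τ + 1), w ρ)
            + σ ^ 2 * (w 1 * (∑ ρ ∈ range (N + 1), w ρ) - w 0 * w (N + 1))) := by
      rw [sum_tri_swap, Finset.sum_range_succ _ (N + 1)]
      have hE0 : ∑ τ ∈ Ico 0 (N + 1), e τ = ∑ τ ∈ range (N + 1), e τ := by
        rw [Finset.range_eq_Ico]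
      have hS : ∑ ρ ∈ range (N + 1 + 1), w ρ = ∑ ρ ∈ range (N + 1), w ρ + w (N + 1) :=
        Finset.sum_range_succ w (N + 1)
      have hinner : ∀ τ, ∑ ρ ∈ range (τ + 1), (w (N + 1) * w (ρ + 1) - w (N + 1 + 1) * w ρ)
          = w (N + 1) * (∑ ρ ∈ range (τ + 1), w ρ + w (τ + 1) - w 0)
            - w (N + 1 + 1) * ∑ ρ ∈ range (τ + 1), w ρ := by
        intro τ
        rw [Finset.sum_sub_distrib, ← Finset.mul_sum, ← Finset.mul_sum]
        have h1 : ∑ ρ ∈ range (τ + 1), w (ρ + 1) = ∑ ρ ∈ range (τ + 1), w ρ + w (τ + 1) - w 0 := by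
          have h2 := Finset.sum_range_succ' w (τ + 1)
          have h3 := Finset.sum_range_succ w (τ + 1)
          linarith
        rw [h1]
      rw [hE0, hS]
      simp only [hinner]
      have hsplit : ∀ F G H : ℕ → ℝ, (∀ τ, F τ + H τ = G τ) →
          ∑ τ ∈ range (N + 1), F τ + ∑ τ ∈ range (N + 1), H τ = ∑ τ ∈ range (N + 1), G τ := by
        intro F G H hFG
        rw [← Finset.sum_add_distrib]
        exact Finset.sum_congr rfl (fun τ _ => hFG τ)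
      have hmain : ∑ τ ∈ range (N + 1), e τ * (w (N + 1) * (∑ ρ ∈ range (τ + 1), w ρ + w (τ + 1)
              - w 0) - w (N + 1 + 1) * ∑ ρ ∈ range (τ + 1), w ρ)
            + ∑ τ ∈ range (N + 1), w (N + 1) * w 0 * e τ
          = ∑ τ ∈ range (N + 1), e τ * (w (τ + 1) * (∑ ρ ∈ range (N + 1), w ρ + w (N + 1))
              - w (N + 1 + 1) * ∑ ρ ∈ range (τ + 1), w ρ)
            - ∑ τ ∈ range (N + 1), e τ * (w (τ + 1) * (∑ ρ ∈ range (N + 1), w ρ)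
              - w (N + 1) * ∑ ρ ∈ range (τ + 1), w ρ) := by
        rw [← Finset.sum_sub_distrib]
        refine hsplit _ _ _ (fun τ => ?_)
        ring
      have hmul : w (N + 1) * w 0 * (σ ^ 2 + ∑ τ ∈ range (N + 1), e τ)
          = w (N + 1) * w 0 * σ ^ 2 + ∑ τ ∈ range (N + 1), w (N + 1) * w 0 * e τ := by
        rw [mul_add, Finset.mul_sum]
      rw [hmul]
      linarith
    -- assembly
    have hvar := var_succ w (fun ρ => φ0 ρ + if ρ = 0 then σ else 0) N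
    rw [hvar]
    linarith

/-- **The window lemma.**  For positive weights `w 0, …, w N` with `w (N + 1) ≥ 0` and
`w (τ + 2) w τ ≤ w (τ + 1) ^ 2` (the ratios `w (τ + 1) / w τ` are nonincreasing), nonnegative
`e τ` and values `φ0` whose increments satisfy
`(φ0 (τ + 1) - φ0 τ) ^ 2 ≤ (w (τ + 1) / w τ - w (τ + 2) / w (τ + 1)) * e τ`, the weighted
variance of the values `φ0 ρ + σ [ρ = 0]` satisfies
`(∑ w) (∑ w φ ^ 2) - (∑ w φ) ^ 2 ≤ (∑ w) (∑ w (τ + 1) e τ + σ ^ 2 w 1)`. -/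
theorem window_lemma (N : ℕ) (w φ0 e : ℕ → ℝ) (σ : ℝ)
    (hw : ∀ ρ, ρ ≤ N → 0 < w ρ) (hwN : 0 ≤ w (N + 1)) (he : ∀ τ, τ < N → 0 ≤ e τ)
    (hR : ∀ τ, τ < N → w (τ + 2) * w τ ≤ w (τ + 1) ^ 2)
    (hinc : ∀ τ, τ < N → (φ0 (τ + 1) - φ0 τ) ^ 2
      ≤ (w (τ + 1) / w τ - w (τ + 2) / w (τ + 1)) * e τ) :
    (∑ ρ ∈ range (N + 1), w ρ)
        * (∑ ρ ∈ range (N + 1), w ρ * (φ0 ρ + if ρ = 0 then σ else 0) ^ 2)
        - (∑ ρ ∈ range (N + 1), w ρ * (φ0 ρ + if ρ = 0 then σ else 0)) ^ 2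
      ≤ (∑ ρ ∈ range (N + 1), w ρ) * (∑ τ ∈ range N, w (τ + 1) * e τ + σ ^ 2 * w 1) := by
  refine (window_strong w φ0 e σ N hw he hR hinc).trans ?_
  have hS : 0 ≤ ∑ ρ ∈ range (N + 1), w ρ :=
    Finset.sum_nonneg (fun ρ hρ => (hw ρ (by have := Finset.mem_range.mp hρ; omega)).le)
  have h0 : 0 < w 0 := hw 0 (Nat.zero_le N)
  have h1 : ∑ τ ∈ range (N + 1), e τ * (w (τ + 1) * (∑ ρ ∈ range (N + 1), w ρ)
        - w (N + 1) * ∑ ρ ∈ range (τ + 1), w ρ)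
      ≤ (∑ ρ ∈ range (N + 1), w ρ) * ∑ τ ∈ range N, w (τ + 1) * e τ := by
    rw [Finset.sum_range_succ]
    have hlast : e N * (w (N + 1) * (∑ ρ ∈ range (N + 1), w ρ)
        - w (N + 1) * ∑ ρ ∈ range (N + 1), w ρ) = 0 := by ring
    rw [hlast, add_zero, Finset.mul_sum]
    refine Finset.sum_le_sum (fun τ hτ => ?_)
    have hτ' := Finset.mem_range.mp hτ
    have h2 : 0 ≤ ∑ ρ ∈ range (τ + 1), w ρ :=
      Finset.sum_nonneg (fun ρ hρ => (hw ρ (by have := Finset.mem_range.mp hρ; omega)).le)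
    have h3 : 0 ≤ e τ * (w (N + 1) * ∑ ρ ∈ range (τ + 1), w ρ) :=
      mul_nonneg (he τ hτ') (mul_nonneg hwN h2)
    nlinarith
  have h4 : σ ^ 2 * (w 1 * (∑ ρ ∈ range (N + 1), w ρ) - w 0 * w (N + 1))
      ≤ (∑ ρ ∈ range (N + 1), w ρ) * (σ ^ 2 * w 1) := by
    have h5 : 0 ≤ σ ^ 2 * (w 0 * w (N + 1)) := mul_nonneg (sq_nonneg σ) (mul_nonneg h0.le hwN)
    nlinarith
  rw [mul_add]
  linarith

end Vale.Agent.Lib.P328.H30
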