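import Mathlib
import Vale.Agent.Lib.P328.helper74.ChainDefs
import Vale.Agent.Lib.P328.helper30.Window

/-!
P328: the column step for the level sequences of a box.  If `(w, l, q)` has the property
`Lor m`, then the sequences obtained by adding a column of capacity `C` and weight `t` have the
property `Lor (m + C)`.
-/

namespace Vale.Agent.Lib.P328.H30

open Finset
open Vale.Agent.Lib.P328.helper74

/-- a binary quadratic form that is nonnegative everywhere has nonpositive discriminant -/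
theorem disc_of_form (α β γ : ℝ)
    (h : ∀ y z : ℝ, 0 ≤ α * y ^ 2 - 2 * β * y * z + γ * z ^ 2) : β ^ 2 ≤ α * γ := by
  have hα : 0 ≤ α := by
    have h1 := h 1 0
    simpa using h1
  rcases hα.eq_or_lt with h0 | hpos
  · have hβ : β = 0 := by
      by_contra hb
      have h1 := h ((γ + 1) / (2 * β)) 1
      have h2 : α * ((γ + 1) / (2 * β)) ^ 2 - 2 * β * ((γ + 1) / (2 * β)) * 1 + γ * 1 ^ 2
          = -1 := by
        rw [← h0]
        field_simp
        ring
      linarith
    rw [hβ, ← h0]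
    simp
  · have h1 := h β α
    have h2 : α * β ^ 2 ≤ α * (α * γ) := by nlinarith
    exact le_of_mul_le_mul_left h2 hpos

/-- **The window lemma in the form used for the column step.** -/
theorem window_core (N : ℕ) (v ξ T : ℕ → ℝ) (σ : ℝ)
    (hv : ∀ i, i ≤ N → 0 < v i) (hvN : 0 ≤ v (N + 1))
    (hlc : ∀ τ, τ < N → v (τ + 2) * v τ ≤ v (τ + 1) ^ 2)
    (hP : ∀ i, i ≤ N → 0 ≤ ξ i ^ 2 - v i * T i)
    (hinc : ∀ τ, τ < N → (v τ * ξ (τ + 1) - v (τ + 1) * ξ τ) ^ 2
      ≤ (v (τ + 1) ^ 2 - v τ * v (τ + 2)) * (ξ τ ^ 2 - v τ * T τ)) :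
    (∑ i ∈ range (N + 1), v i)
        * (∑ i ∈ range (N + 1), T i + 2 * σ * ξ 0 + σ ^ 2 * v 0 - σ ^ 2 * v 1)
      ≤ (∑ i ∈ range (N + 1), ξ i + σ * v 0) ^ 2 := by
  have hv0 : 0 < v 0 := hv 0 (Nat.zero_le N)
  have hwin := window_lemma N v (fun i => ξ i / v i)
    (fun τ => (ξ τ ^ 2 - v τ * T τ) / (v τ * v (τ + 1))) σ hv hvN
    (fun τ hτ => div_nonneg (hP τ hτ.le) (mul_pos (hv τ hτ.le) (hv (τ + 1) hτ)).le) hlc
    (fun τ hτ => by
      have h1 := hv τ hτ.le
      have h2 := hv (τ + 1) hτ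
      have e1 : ξ (τ + 1) / v (τ + 1) - ξ τ / v τ
          = (v τ * ξ (τ + 1) - v (τ + 1) * ξ τ) / (v τ * v (τ + 1)) := by
        field_simp
      have e2 : (v (τ + 1) / v τ - v (τ + 2) / v (τ + 1))
            * ((ξ τ ^ 2 - v τ * T τ) / (v τ * v (τ + 1)))
          = ((v (τ + 1) ^ 2 - v τ * v (τ + 2)) * (ξ τ ^ 2 - v τ * T τ))
            / (v τ * v (τ + 1)) ^ 2 := by
        field_simp
      rw [e1, e2, div_pow]
      exact div_le_div_of_nonneg_right (hinc τ hτ) (sq_nonneg _))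
  -- the three sums
  have hS1 : ∑ i ∈ range (N + 1), v i * (ξ i / v i + if i = 0 then σ else 0)
      = ∑ i ∈ range (N + 1), ξ i + σ * v 0 := by
    rw [Finset.sum_range_succ', Finset.sum_range_succ' ξ N]
    have h1 : ∑ i ∈ range N, v (i + 1) * (ξ (i + 1) / v (i + 1) + if i + 1 = 0 then σ else 0)
        = ∑ i ∈ range N, ξ (i + 1) := by
      refine Finset.sum_congr rfl (fun i hi => ?_)
      have h2 := hv (i + 1) (Finset.mem_range.mp hi)
      rw [if_neg (Nat.succ_ne_zero i), add_zero]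
      field_simp
    rw [h1, if_pos rfl]
    field_simp
    ring
  have hS2 : ∑ i ∈ range (N + 1), v i * (ξ i / v i + if i = 0 then σ else 0) ^ 2
      = ∑ i ∈ range (N + 1), ξ i ^ 2 / v i + 2 * σ * ξ 0 + σ ^ 2 * v 0 := by
    rw [Finset.sum_range_succ', Finset.sum_range_succ' (fun i => ξ i ^ 2 / v i) N]
    have h1 : ∑ i ∈ range N, v (i + 1) * (ξ (i + 1) / v (i + 1) + if i + 1 = 0 then σ else 0) ^ 2
        = ∑ i ∈ range N, ξ (i + 1) ^ 2 / v (i + 1) := by
      refine Finset.sum_congr rfl (fun i hi => ?_)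
      have h2 := hv (i + 1) (Finset.mem_range.mp hi)
      rw [if_neg (Nat.succ_ne_zero i), add_zero]
      field_simp
    rw [h1, if_pos rfl]
    field_simp
    ring
  have hS3 : ∑ τ ∈ range N, v (τ + 1) * ((ξ τ ^ 2 - v τ * T τ) / (v τ * v (τ + 1)))
      ≤ ∑ i ∈ range (N + 1), (ξ i ^ 2 - v i * T i) / v i := by
    rw [Finset.sum_range_succ]
    have h1 : ∑ τ ∈ range N, v (τ + 1) * ((ξ τ ^ 2 - v τ * T τ) / (v τ * v (τ + 1)))
        = ∑ τ ∈ range N, (ξ τ ^ 2 - v τ * T τ) / v τ := by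
      refine Finset.sum_congr rfl (fun τ hτ => ?_)
      have h2 := hv τ (Finset.mem_range.mp hτ).le
      have h3 := hv (τ + 1) (Finset.mem_range.mp hτ)
      field_simp
    rw [h1]
    have h4 : 0 ≤ (ξ N ^ 2 - v N * T N) / v N := div_nonneg (hP N le_rfl) (hv N le_rfl).le
    linarith
  have hS4 : ∑ i ∈ range (N + 1), T i
      = ∑ i ∈ range (N + 1), ξ i ^ 2 / v i - ∑ i ∈ range (N + 1), (ξ i ^ 2 - v i * T i) / v i := by
    rw [← Finset.sum_sub_distrib]
    refine Finset.sum_congr rfl (fun i hi => ?_)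
    have h2 := hv i (by have := Finset.mem_range.mp hi; omega)
    field_simp
    ring
  have hW : 0 ≤ ∑ i ∈ range (N + 1), v i :=
    Finset.sum_nonneg (fun i hi => (hv i (by have := Finset.mem_range.mp hi; omega)).le)
  rw [hS1, hS2] at hwin
  rw [hS4]
  have h5 := mul_le_mul_of_nonneg_left hS3 hW
  nlinarith

/-- the first-order combination of the level sequences -/
def xiF (w l : ℤ → ℝ) (y z : ℝ) (ρ : ℤ) : ℝ := w (ρ + 1) * y + l ρ * z

/-- the second-order combination of the level sequences -/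
def tF (w l q : ℤ → ℝ) (y z : ℝ) (ρ : ℤ) : ℝ :=
  w (ρ + 2) * y ^ 2 + 2 * l (ρ + 1) * y * z + q ρ * z ^ 2

section facts

variable {m : ℕ} {w l q : ℤ → ℝ}

theorem Lor_nonneg (h : Lor m w l q) (ρ : ℤ) : 0 ≤ w ρ := by
  obtain ⟨hpos, hw0, _, _, _⟩ := h
  by_cases hin : 0 ≤ ρ ∧ ρ ≤ (m : ℤ)
  · exact (hpos ρ hin.1 hin.2).le
  · have hout : ρ < 0 ∨ (m : ℤ) < ρ := by omega
    rw [hw0 ρ hout]

theorem Lor_form (h : Lor m w l q) (y z : ℝ) (ρ : ℤ) (h0 : 0 ≤ ρ) (hm : ρ ≤ (m : ℤ)) :
    0 ≤ xiF w l y z ρ ^ 2 - w ρ * tF w l q y z ρ := by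
  have h1 := h.2.2.2.2 ρ h0 hm y z
  unfold xiF tF
  linarith

theorem Lor_lc (h : Lor m w l q) (ρ : ℤ) (h0 : 0 ≤ ρ) (hm : ρ ≤ (m : ℤ)) :
    w ρ * w (ρ + 2) ≤ w (ρ + 1) ^ 2 := by
  have h1 := h.2.2.2.2 ρ h0 hm 1 0
  simp only [one_pow, mul_one, mul_zero, zero_pow, ne_eq, OfNat.ofNat_ne_zero, not_false_eq_true,
    sub_zero, add_zero] at h1
  linarith

theorem Lor_inc (h : Lor m w l q) (y z : ℝ) (ρ : ℤ) (h0 : 0 ≤ ρ) (hm : ρ ≤ (m : ℤ)) :
    (w ρ * xiF w l y z (ρ + 1) - w (ρ + 1) * xiF w l y z ρ) ^ 2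
      ≤ (w (ρ + 1) ^ 2 - w ρ * w (ρ + 2)) * (xiF w l y z ρ ^ 2 - w ρ * tF w l q y z ρ) := by
  have hd := disc_of_form (w (ρ + 1) ^ 2 - w ρ * w (ρ + 2)) (w ρ * l (ρ + 1) - w (ρ + 1) * l ρ)
    (l ρ ^ 2 - w ρ * q ρ) (fun y z => by have := h.2.2.2.2 ρ h0 hm y z; linarith)
  unfold xiF tF
  have e : ρ + 1 + 1 = ρ + 2 := by ring
  rw [e]
  have key : (w (ρ + 1) ^ 2 - w ρ * w (ρ + 2))
        * ((w (ρ + 1) * y + l ρ * z) ^ 2
          - w ρ * (w (ρ + 2) * y ^ 2 + 2 * l (ρ + 1) * y * z + q ρ * z ^ 2))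
      - (w ρ * (w (ρ + 2) * y + l (ρ + 1) * z) - w (ρ + 1) * (w (ρ + 1) * y + l ρ * z)) ^ 2
      = ((w (ρ + 1) ^ 2 - w ρ * w (ρ + 2)) * (l ρ ^ 2 - w ρ * q ρ)
          - (w ρ * l (ρ + 1) - w (ρ + 1) * l ρ) ^ 2) * z ^ 2 := by
    ring
  have h2 := mul_nonneg (sub_nonneg.mpr hd) (sq_nonneg z)
  linarith

theorem xiF_top (h : Lor m w l q) (y z : ℝ) (ρ : ℤ) (hρ : (m : ℤ) < ρ) :
    xiF w l y z ρ = 0 := by
  unfold xiF
  rw [h.2.1 (ρ + 1) (Or.inr (by omega)), h.2.2.1 ρ (Or.inr hρ)]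
  ring

theorem xiF_bot (h : Lor m w l q) (y z : ℝ) (ρ : ℤ) (hρ : ρ ≤ -2) : xiF w l y z ρ = 0 := by
  unfold xiF
  rw [h.2.1 (ρ + 1) (Or.inl (by omega)), h.2.2.1 ρ (Or.inl (by omega))]
  ring

theorem xiF_neg_one (h : Lor m w l q) (y z : ℝ) : xiF w l y z (-1) = w 0 * y := by
  unfold xiF
  rw [h.2.2.1 (-1) (Or.inl (by norm_num))]
  norm_num

theorem tF_top (h : Lor m w l q) (y z : ℝ) (ρ : ℤ) (hρ : (m : ℤ) < ρ) :
    tF w l q y z ρ = 0 := by
  unfold tF
  rw [h.2.1 (ρ + 2) (Or.inr (by omega)), h.2.2.1 (ρ + 1) (Or.inr (by omega)),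
    h.2.2.2.1 ρ (Or.inr hρ)]
  ring

theorem tF_bot (h : Lor m w l q) (y z : ℝ) (ρ : ℤ) (hρ : ρ ≤ -3) : tF w l q y z ρ = 0 := by
  unfold tF
  rw [h.2.1 (ρ + 2) (Or.inl (by omega)), h.2.2.1 (ρ + 1) (Or.inl (by omega)),
    h.2.2.2.1 ρ (Or.inl (by omega))]
  ring

theorem tF_neg_one (h : Lor m w l q) (y z : ℝ) :
    tF w l q y z (-1) = w 1 * y ^ 2 + 2 * l 0 * y * z := by
  unfold tF
  rw [h.2.2.2.1 (-1) (Or.inl (by norm_num))]
  norm_num

theorem tF_neg_two (h : Lor m w l q) (y z : ℝ) : tF w l q y z (-2) = w 0 * y ^ 2 := by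
  unfold tF
  rw [h.2.2.2.1 (-2) (Or.inl (by norm_num)), h.2.2.1 (-2 + 1) (Or.inl (by norm_num))]
  norm_num

/-- **The window inequality on a window inside the support.** -/
theorem core_at (h : Lor m w l q) (y z σ : ℝ) (p : ℤ) (N : ℕ) (hp : 0 ≤ p)
    (hpN : p + (N : ℤ) ≤ (m : ℤ)) :
    (∑ i ∈ range (N + 1), w (p + (i : ℤ)))
        * (∑ i ∈ range (N + 1), tF w l q y z (p + (i : ℤ)) + 2 * σ * xiF w l y z p
            + σ ^ 2 * w p - σ ^ 2 * w (p + 1))
      ≤ (∑ i ∈ range (N + 1), xiF w l y z (p + (i : ℤ)) + σ * w p) ^ 2 := by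
  have c1 : ∀ τ : ℕ, p + ((τ + 1 : ℕ) : ℤ) = p + (τ : ℤ) + 1 := by
    intro τ
    push_cast
    ring
  have c2 : ∀ τ : ℕ, p + ((τ + 2 : ℕ) : ℤ) = p + (τ : ℤ) + 2 := by
    intro τ
    push_cast
    ring
  have key := window_core N (fun i => w (p + (i : ℤ))) (fun i => xiF w l y z (p + (i : ℤ)))
    (fun i => tF w l q y z (p + (i : ℤ))) σ
    (fun i hi => h.1 (p + (i : ℤ)) (by omega) (by omega))
    (Lor_nonneg h _)
    (fun τ hτ => by
      rw [c2, c1]
      have := Lor_lc h (p + (τ : ℤ)) (by omega) (by omega)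
      linarith)
    (fun i hi => Lor_form h y z (p + (i : ℤ)) (by omega) (by omega))
    (fun τ hτ => by
      rw [c2, c1]
      exact Lor_inc h y z (p + (τ : ℤ)) (by omega) (by omega))
  simp only [Nat.cast_zero, add_zero, Nat.cast_one] at key
  exact key

end facts

/-- reflection of a window sum -/
theorem sum_win_reflect (F : ℤ → ℝ) (C : ℕ) (r : ℤ) :
    ∑ k ∈ range (C + 1), F (r - (k : ℤ)) = ∑ i ∈ range (C + 1), F (r - (C : ℤ) + (i : ℤ)) := by
  rw [← Finset.sum_range_reflect (fun i => F (r - (C : ℤ) + (i : ℤ))) (C + 1)]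
  refine Finset.sum_congr rfl (fun k hk => ?_)
  have hk' := Finset.mem_range.mp hk
  have e : ((C + 1 - 1 - k : ℕ) : ℤ) = (C : ℤ) - (k : ℤ) := by omega
  rw [e]
  congr 1
  ring

/-- splitting a window sum into the part below, the part inside and the (vanishing) part above -/
theorem sum_win_split (G : ℕ → ℝ) (D N K : ℕ) (hK : ∀ x, x < K → G (D + (N + 1) + x) = 0) :
    ∑ i ∈ range (D + (N + 1) + K), G i
      = ∑ i ∈ range D, G i + ∑ j ∈ range (N + 1), G (D + j) := by
  rw [Finset.sum_range_add, Finset.sum_range_add,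
    Finset.sum_eq_zero (fun x hx => hK x (Finset.mem_range.mp hx)), add_zero]

/-- evaluation of a window sum of a function that vanishes above the level `m` -/
theorem win_eval (F : ℤ → ℝ) (m : ℕ) (hF : ∀ ρ : ℤ, (m : ℤ) < ρ → F ρ = 0) (C D N : ℕ) (r : ℤ)
    (hN1 : D + N ≤ C) (hN2 : D + N < C → r - (C : ℤ) + (D : ℤ) + (N : ℤ) = (m : ℤ)) :
    ∑ k ∈ range (C + 1), F (r - (k : ℤ))
      = ∑ i ∈ range D, F (r - (C : ℤ) + (i : ℤ))
        + ∑ j ∈ range (N + 1), F (r - (C : ℤ) + (D : ℤ) + (j : ℤ)) := by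
  rw [sum_win_reflect]
  have hC : C + 1 = D + (N + 1) + (C - D - N) := by omega
  rw [hC, sum_win_split (fun i => F (r - (C : ℤ) + (i : ℤ))) D N (C - D - N)]
  · congr 1
    refine Finset.sum_congr rfl (fun j _ => ?_)
    congr 1
    push_cast
    ring
  · intro x hx
    apply hF
    have h1 := hN2 (by omega)
    push_cast
    omega

/-- **The column step.**  Adding a column of capacity `C` and weight `t` preserves the property
`Lor`: if `(w, l, q)` has the property `Lor m`, then `(addW C w, addL C t w l, addQ C t w l q)`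
has the property `Lor (m + C)`. -/
theorem Lor_step {m : ℕ} {w l q : ℤ → ℝ} (h : Lor m w l q) (C : ℕ) (t : ℝ) :
    Lor (m + C) (addW C w) (addL C t w l) (addQ C t w l q) := by
  have hnn := Lor_nonneg h
  have hpos := h.1
  have hw0 := h.2.1
  have hl0 := h.2.2.1
  have hq0 := h.2.2.2.1
  have hmain := h.2.2.2.2
  refine ⟨?_, ?_, ?_, ?_, ?_⟩
  · -- positivity
    intro r h0 hm
    have hm' : r ≤ (m : ℤ) + (C : ℤ) := by
      push_cast at hm
      exact hm
    unfold addW
    by_cases hr : r ≤ (m : ℤ)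
    · have h1 : w (r - ((0 : ℕ) : ℤ)) ≤ ∑ k ∈ range (C + 1), w (r - (k : ℤ)) :=
        Finset.single_le_sum (f := fun k : ℕ => w (r - (k : ℤ))) (fun k _ => hnn _)
          (Finset.mem_range.mpr (Nat.succ_pos C))
      have h2 : 0 < w (r - ((0 : ℕ) : ℤ)) := hpos _ (by push_cast; omega) (by push_cast; omega)
      exact lt_of_lt_of_le h2 h1
    · obtain ⟨k0, hk0⟩ := Int.eq_ofNat_of_zero_le (show 0 ≤ r - (m : ℤ) by omega)
      have h1 : w (r - (k0 : ℤ)) ≤ ∑ k ∈ range (C + 1), w (r - (k : ℤ)) :=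
        Finset.single_le_sum (f := fun k : ℕ => w (r - (k : ℤ))) (fun k _ => hnn _)
          (Finset.mem_range.mpr (by omega))
      have h2 : 0 < w (r - (k0 : ℤ)) := hpos _ (by omega) (by omega)
      exact lt_of_lt_of_le h2 h1
  · -- the count sequence vanishes outside the support
    intro r hr
    have hr' : r < 0 ∨ (m : ℤ) + (C : ℤ) < r := by
      push_cast at hr
      exact hr
    unfold addW
    refine Finset.sum_eq_zero (fun k hk => ?_)
    have hk' := Finset.mem_range.mp hk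
    exact hw0 _ (by omega)
  · -- the first-order sequence vanishes outside the support
    intro r hr
    have hr' : r < 0 ∨ (m : ℤ) + (C : ℤ) < r := by
      push_cast at hr
      exact hr
    unfold addL
    rw [Finset.sum_eq_zero (fun k hk => hl0 _ (by have := Finset.mem_range.mp hk; omega)),
      hw0 _ (by omega)]
    ring
  · -- the second-order sequence vanishes outside the support
    intro r hr
    have hr' : r < 0 ∨ (m : ℤ) + (C : ℤ) < r := by
      push_cast at hr
      exact hr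
    unfold addQ
    rw [Finset.sum_eq_zero (fun k hk => hq0 _ (by have := Finset.mem_range.mp hk; omega)),
      hl0 _ (by omega), hw0 (r - (C : ℤ)) (by omega)]
    split_ifs with hC
    · rw [hw0 (r - (C : ℤ) + 1) (by omega)]
      ring
    · ring
  · -- the binary forms
    intro r h0 hm y z
    have hm' : r ≤ (m : ℤ) + (C : ℤ) := by
      push_cast at hm
      exact hm
    suffices hsuff : addW C w r * (addW C w (r + 2) * y ^ 2
          + 2 * addL C t w l (r + 1) * y * z + addQ C t w l q r * z ^ 2)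
        ≤ (addW C w (r + 1) * y + addL C t w l r * z) ^ 2 by
      linarith
    rcases Nat.eq_zero_or_pos C with hC0 | hCpos
    · subst hC0
      have e1 : ∀ ρ, addW 0 w ρ = w ρ := by
        intro ρ
        simp [addW]
      have e2 : ∀ ρ, addL 0 t w l ρ = l ρ + t * w ρ := by
        intro ρ
        simp [addL]
      have e3 : ∀ ρ, addQ 0 t w l q ρ = q ρ + 2 * t * l ρ + t ^ 2 * w ρ := by
        intro ρ
        simp [addQ]
      rw [e1, e1, e1, e2, e2, e3]
      have h1 := hmain r h0 (by simpa using hm') y z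
      linarith
    · have hΞ : addW C w (r + 1) * y + addL C t w l r * z
          = ∑ k ∈ range (C + 1), xiF w l y z (r - (k : ℤ)) + t * z * w (r - (C : ℤ)) := by
        unfold addW addL xiF
        have e : ∀ k : ℕ, r + 1 - (k : ℤ) = r - (k : ℤ) + 1 := fun k => by ring
        simp only [e, Finset.sum_add_distrib, ← Finset.sum_mul]
        ring
      have hT : addW C w (r + 2) * y ^ 2 + 2 * addL C t w l (r + 1) * y * z
            + addQ C t w l q r * z ^ 2
          = ∑ k ∈ range (C + 1), tF w l q y z (r - (k : ℤ))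
            + 2 * (t * z) * xiF w l y z (r - (C : ℤ))
            + (t * z) ^ 2 * w (r - (C : ℤ)) - (t * z) ^ 2 * w (r - (C : ℤ) + 1) := by
        unfold addW addL addQ xiF tF
        rw [if_pos (show 1 ≤ C from hCpos)]
        have e1 : ∀ k : ℕ, r + 2 - (k : ℤ) = r - (k : ℤ) + 2 := fun k => by ring
        have e2 : ∀ k : ℕ, r + 1 - (k : ℤ) = r - (k : ℤ) + 1 := fun k => by ring
        simp only [e1, e2, Finset.sum_add_distrib, ← Finset.sum_mul, ← Finset.mul_sum]
        ring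
      rw [hΞ, hT]
      unfold addW
      have hW0 : 0 ≤ ∑ k ∈ range (C + 1), w (r - (k : ℤ)) :=
        Finset.sum_nonneg (fun k _ => hnn _)
      by_cases ha : 0 ≤ r - (C : ℤ)
      · -- the window starts inside the support
        obtain ⟨A, hA⟩ := Int.eq_ofNat_of_zero_le ha
        obtain ⟨N, hN1, hN2, hN3⟩ : ∃ N : ℕ, N ≤ C ∧ A + N ≤ m ∧ (N < C → A + N = m) := by
          by_cases hc : A + C ≤ m
          · exact ⟨C, le_rfl, hc, fun hlt => absurd hlt (lt_irrefl _)⟩
          · exact ⟨m - A, by omega, by omega, by omega⟩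
        have hN1' : 0 + N ≤ C := by omega
        have hN2' : 0 + N < C → r - (C : ℤ) + ((0 : ℕ) : ℤ) + (N : ℤ) = (m : ℤ) := by
          intro hlt
          have := hN3 (by omega)
          push_cast
          omega
        rw [win_eval w m (fun ρ hρ => hw0 ρ (Or.inr hρ)) C 0 N r hN1' hN2',
          win_eval (xiF w l y z) m (xiF_top h y z) C 0 N r hN1' hN2',
          win_eval (tF w l q y z) m (tF_top h y z) C 0 N r hN1' hN2']
        simp only [Finset.range_zero, Finset.sum_empty, zero_add, Nat.cast_zero, add_zero]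
        exact core_at h y z (t * z) (r - (C : ℤ)) N ha (by omega)
      · -- the window starts below the support
        obtain ⟨D, hD⟩ := Int.eq_ofNat_of_zero_le (show 0 ≤ (C : ℤ) - r by omega)
        obtain ⟨N, hN1, hN2, hN3⟩ : ∃ N : ℕ, D + N ≤ C ∧ N ≤ m ∧ (D + N < C → N = m) := by
          by_cases hc : C - D ≤ m
          · exact ⟨C - D, by omega, hc, fun hlt => by omega⟩
          · exact ⟨m, by omega, le_rfl, fun _ => rfl⟩
        have hN2' : D + N < C → r - (C : ℤ) + (D : ℤ) + (N : ℤ) = (m : ℤ) := by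
          intro hlt
          have := hN3 hlt
          omega
        rw [win_eval w m (fun ρ hρ => hw0 ρ (Or.inr hρ)) C D N r hN1 hN2',
          win_eval (xiF w l y z) m (xiF_top h y z) C D N r hN1 hN2',
          win_eval (tF w l q y z) m (tF_top h y z) C D N r hN1 hN2']
        have e0 : r - (C : ℤ) + (D : ℤ) = 0 := by omega
        simp only [e0, zero_add]
        have hbw : ∑ i ∈ range D, w (r - (C : ℤ) + (i : ℤ)) = 0 :=
          Finset.sum_eq_zero (fun i hi => hw0 _ (Or.inl (by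
            have := Finset.mem_range.mp hi
            omega)))
        rw [hbw, zero_add]
        have key := core_at h y z y 0 N le_rfl (by omega)
        simp only [zero_add] at key
        have hx0 : xiF w l y z 0 = w 1 * y + l 0 * z := by
          unfold xiF
          norm_num
        rw [hx0] at key
        have hWN : 0 ≤ ∑ i ∈ range (N + 1), w (i : ℤ) := Finset.sum_nonneg (fun i _ => hnn _)
        obtain ⟨D', rfl⟩ : ∃ D', D = D' + 1 := ⟨D - 1, by omega⟩
        have hbx : ∑ i ∈ range (D' + 1), xiF w l y z (r - (C : ℤ) + (i : ℤ)) = w 0 * y := by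
          rw [Finset.sum_range_succ, Finset.sum_eq_zero (fun i hi => xiF_bot h y z _ (by
            have := Finset.mem_range.mp hi
            omega)), zero_add]
          have e : r - (C : ℤ) + (D' : ℤ) = -1 := by omega
          rw [e, xiF_neg_one h]
        rw [hbx]
        rcases Nat.eq_zero_or_pos D' with hD0 | hDpos
        · -- the window starts at level -1
          subst hD0
          have ea : r - (C : ℤ) = -1 := by omega
          rw [ea, xiF_neg_one h, hw0 (-1) (Or.inl (by norm_num))]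
          simp only [zero_add, Finset.sum_range_one, Nat.cast_zero, add_zero]
          rw [tF_neg_one h]
          have e1 : (-1 : ℤ) + 1 = 0 := by norm_num
          rw [e1]
          have hsq := mul_nonneg hWN (mul_nonneg (hnn 0) (sq_nonneg (y - t * z)))
          nlinarith
        · -- the window starts at level -2 or below
          obtain ⟨D'', rfl⟩ : ∃ D'', D' = D'' + 1 := ⟨D' - 1, by omega⟩
          have hbt : ∑ i ∈ range (D'' + 1 + 1), tF w l q y z (r - (C : ℤ) + (i : ℤ))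
              = w 0 * y ^ 2 + (w 1 * y ^ 2 + 2 * l 0 * y * z) := by
            rw [Finset.sum_range_succ, Finset.sum_range_succ,
              Finset.sum_eq_zero (fun i hi => tF_bot h y z _ (by
                have := Finset.mem_range.mp hi
                omega)), zero_add]
            have e1 : r - (C : ℤ) + (D'' : ℤ) = -2 := by omega
            have e2 : r - (C : ℤ) + ((D'' + 1 : ℕ) : ℤ) = -1 := by omega
            rw [e1, e2, tF_neg_two h, tF_neg_one h]
          rw [hbt, xiF_bot h y z (r - (C : ℤ)) (by omega), hw0 (r - (C : ℤ)) (Or.inl (by omega)),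
            hw0 (r - (C : ℤ) + 1) (Or.inl (by omega))]
          nlinarith

end Vale.Agent.Lib.P328.H30
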