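import Mathlib
import Vale.Agent.Lib.P328.helper30.Classes
import Vale.Agent.Lib.P328.helper12.SmallRows

/-!
P328: the mixing bound for the heat bath on two-by-two blocks for the margins in which either
every row sum is at most two or at most one row sum exceeds one, given the three-row inequality
(row form) for the eighteen explicit classes of margins: row sums `(2,2,2)` with the eleven
sorted column-sum vectors of total six on six columns, and row sums `(2,2,1)` with the seven
sorted column-sum vectors of total five.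
-/

namespace Vale.Agent.Lib.P328.H30

open Finset
open Vale.Agent.Lib.P328.RP

/-- The row form for every number of columns and all column sums, for row sums in `{1, 2}` with
at most one entry equal to one, from the eighteen explicit classes. -/
theorem rowForm_all_of_classes
    (H222 : ∀ c ∈ parts6, RowForm ![2, 2, 2] c)
    (H221 : ∀ c ∈ parts5, RowForm ![2, 2, 1] c)
    (n : ℕ) (s : Fin 3 → ℕ) (h12 : ∀ k, s k = 1 ∨ s k = 2)
    (h2 : ∀ a b : Fin 3, a ≠ b → 2 ≤ s a ∨ 2 ≤ s b) : RP.RowForm n s := by
  intro c' g h0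
  have hsum : ∑ k, s k ≤ 6 := by
    rw [Fin.sum_univ_three]
    have h0' := h12 0
    have h1' := h12 1
    have h2' := h12 2
    omega
  exact rows_of_canonical s hsum
    (fun c6 hc g6 h6 => rows_le_two6_of_classes H222 H221 s h12 h2 c6 hc g6 h6) c' g h0

/-- **All row sums at most two, or at most one row sum above one**, from the eighteen explicit
classes. -/
theorem mixing22_small_rows_of_classes
    (H222 : ∀ c ∈ parts6, RowForm ![2, 2, 2] c)
    (H221 : ∀ c ∈ parts5, RowForm ![2, 2, 1] c)
    {m n : ℕ} (hm : 2 ≤ m) (hn : 2 ≤ n) (r : Fin m → ℕ)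
    (hfam : (∀ i, r i ≤ 2) ∨ ∃ i0 : Fin m, ∀ i, i ≠ i0 → r i ≤ 1)
    (c : Fin n → ℕ) (x : CT m n r c) (ε : ℝ) (hε : 0 < ε) (hε1 : ε ≤ 1) (t : ℕ)
    (ht : (m : ℝ) ^ 2 * (n : ℝ) ^ 2 *
      (m * n * Real.log (((∑ i, r i : ℕ) : ℝ) + 1) + Real.log (1 / ε)) ≤ t) :
    (1 / 2) * ∑ y, |(heatBath22 m n r c ^ t) x y - 1 / (Fintype.card (CT m n r c) : ℝ)|
      ≤ ε :=
  mixing22_small_rows_of hm hn r (rowForm_all_of_classes H222 H221 n) hfam c x ε hε hε1 t ht

end Vale.Agent.Lib.P328.H30
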